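-- RD-BASE 7f452579a42e050cebae8c4083df1513f8741de0
import Vale.Agent.P028.MathlibUsed
import Vale.Agent.P028.RD.H232.Fill
import Vale.Agent.P028.H383.Col
import Vale.Agent.P028.RD.H734.CutDefs
attribute [-instance] ProperSMul.toContinuousSMul IsTopologicalTorsor.toContinuousSMul IdemSemiring.toCanonicallyOrderedAdd IdemSemiring.toMulLeftMono IdemSemiring.toMulRightMono AddQuantale.instAddLeftMono AddQuantale.instAddRightMono Quantale.instMulLeftMono Quantale.instMulRightMono FiniteDimensional.rclike_to_real IsScalarTower.complexToReal FiniteDimensional.complexToReal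

/-!
# Filled numbers at the primes `> x`, and the column of one filled number

`Fil g x i R m` : the number `m` is a divisor of `R`, composed of unsplit primes of `(x, z g i]` at
which `R` has its central exponent. The number `R / m` has the cells, the centre, the masses and
the base of `R`, and the word of `R` is the word of `R / m` with the places of `m` emptied.
-/

namespace Vale.P028.SK

open Finset CF RN H669

variable {g : Cfg}

/-! ### Facts on one filled number -/

section

variable {x i R m : ℕ}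

theorem Fil.pos (h : Fil g x i R m) : 0 < R := Nat.pos_of_ne_zero h.1

theorem Fil.dvd (h : Fil g x i R m) : m ∣ R := h.2.1

theorem Fil.m_pos (h : Fil g x i R m) : 0 < m := Nat.pos_of_dvd_of_pos h.dvd h.pos

theorem Fil.div_pos (h : Fil g x i R m) : 0 < R / m :=
  Nat.div_pos (Nat.le_of_dvd h.pos h.dvd) h.m_pos

theorem Fil.mul_div (h : Fil g x i R m) : R / m * m = R := Nat.div_mul_cancel h.dvd

/-- the primes of `m` divide `R`, with a positive exponent -/
theorem Fil.fac_ne (h : Fil g x i R m) {p : ℕ} (hp : p ∈ m.primeFactors) :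
    m.factorization p ≠ 0 ∧ R.factorization p ≠ 0 ∧ m.factorization p ≤ R.factorization p := by
  have h1 : m.factorization p ≠ 0 := by
    rw [← Nat.support_factorization, Finsupp.mem_support_iff] at hp
    exact hp
  have h2 : m.factorization p ≤ R.factorization p :=
    (Nat.factorization_le_iff_dvd h.m_pos.ne' h.1).2 h.dvd p
  exact ⟨h1, by omega, h2⟩

/-- the primes of `m` are at most `N g` -/
theorem Fil.le_N (h : Fil g x i R m) {p : ℕ} (hp : p ∈ m.primeFactors) : p ≤ N g := by
  by_contra hN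
  have h1 := (h.2.2 p hp).2.2.1
  have h2 := (h.fac_ne hp).2.1
  rw [h1] at h2
  apply h2
  unfold kc NT.kN
  rw [if_neg hN]

theorem Fil.flp (h : Fil g x i R m) (hx : zs g ≤ x) : ∀ p, p.Prime → p ∣ m → Flp g R p := by
  intro p hp hd
  have hpm : p ∈ m.primeFactors := Nat.mem_primeFactors.2 ⟨hp, hd, h.m_pos.ne'⟩
  obtain ⟨h1, h2, h3, h4⟩ := h.2.2 p hpm
  exact ⟨mem_PO.2 ⟨hp, by omega, h.le_N hpm⟩, h4, h3⟩

/-- a fill at the stage `i` is a fill at the earlier stages `j ≤ i` -/
theorem Fil.stage_le (h : Fil g x i R m) {j : ℕ} (hji : j ≤ i) : Fil g x j R m :=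
  h.mono (z_anti g hji)

/-- a divisor of a fill is a fill -/
theorem Fil.of_dvd (h : Fil g x i R m) {m' : ℕ} (hd : m' ∣ m) : Fil g x i R m' :=
  ⟨h.1, hd.trans h.dvd, fun p hp => h.2.2 p (Nat.primeFactors_mono hd h.m_pos.ne' hp)⟩

/-- a divisor of `m` at the primes `≤ z g i'` -/
theorem Fil.of_le (h : Fil g x i R m) {m' i' : ℕ} (hd : m' ∣ m)
    (hz : ∀ p ∈ m'.primeFactors, p ≤ z g i') : Fil g x i' R m' :=
  ⟨h.1, hd.trans h.dvd, fun p hp => by
    obtain ⟨h1, -, h3, h4⟩ := h.2.2 p (Nat.primeFactors_mono hd h.m_pos.ne' hp)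
    exact ⟨h1, hz p hp, h3, h4⟩⟩

theorem Fil.cell (h : Fil g x i R m) (hx : zs g ≤ x) (n : ℕ) :
    NT.cell g.V (f g) (thr g) (N g) n (R / m) = NT.cell g.V (f g) (thr g) (N g) n R :=
  fill_cell h.dvd (h.flp hx) n

theorem Fil.kc (h : Fil g x i R m) (hx : zs g ≤ x) (p : ℕ) : kc g (R / m) p = kc g R p :=
  fill_kc h.dvd (h.flp hx) p

theorem Fil.Spl (h : Fil g x i R m) (hx : zs g ≤ x) (p : ℕ) : Spl g (R / m) p ↔ Spl g R p :=
  fill_Spl h.dvd (h.flp hx) p

theorem Fil.Qc (h : Fil g x i R m) (hx : zs g ≤ x) : Qc g (R / m) = Qc g R :=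
  fill_Qc h.dvd (h.flp hx)

theorem Fil.bl (h : Fil g x i R m) (hx : zs g ≤ x) : bl g (R / m) = bl g R :=
  fill_bl h.pos h.dvd (h.flp hx)

theorem Fil.fac (h : Fil g x i R m) (p : ℕ) :
    (R / m).factorization p = R.factorization p - m.factorization p := div_fac h.dvd p

theorem Fil.hn (h : Fil g x i R m) (hx : zs g ≤ x) (j : ℕ) : hn g (R / m) j = hn g R j := by
  classical
  unfold SK.hn
  rw [h.Qc hx]
  by_cases h1 : (SK.Qc g R).factorization (N g - j) ≠ 0 ∧ ¬ SK.Spl g R (N g - j)
  · rw [if_pos h1, if_pos ⟨h1.1, fun h2 => h1.2 ((h.Spl hx _).1 h2)⟩]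
  · rw [if_neg h1, if_neg fun h2 => h1 ⟨h2.1, fun h3 => h2.2 ((h.Spl hx _).2 h3)⟩]

theorem Fil.muw (h : Fil g x i R m) (hx : zs g ≤ x) (c1 : ℝ) : muw g c1 (R / m) = muw g c1 R := by
  funext j
  unfold SK.muw
  rw [h.hn hx]

/-- the deficit of the filled number -/
theorem Fil.Md_fac (h : Fil g x i R m) (hx : zs g ≤ x) (p : ℕ) :
    (Md g (R / m)).factorization p = (Md g R).factorization p + m.factorization p := by
  rw [SK.Md_fac, SK.Md_fac, h.kc hx, h.fac]
  by_cases hp : p ∈ m.primeFactors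
  · obtain ⟨h1, h2, h3⟩ := h.fac_ne hp
    obtain ⟨h4, -, h5, -⟩ := h.2.2 p hp
    have h6 : p ∈ PO (zs g) (N g) :=
      mem_PO.2 ⟨Nat.prime_of_mem_primeFactors hp, by omega, h.le_N hp⟩
    rw [if_pos h6, if_pos h6]
    omega
  · have h1 : m.factorization p = 0 := by
      rw [← Nat.support_factorization, Finsupp.mem_support_iff, not_not] at hp
      exact hp
    rw [h1, Nat.sub_zero, add_zero]

/-- the labels of the word of a number, no hypothesis -/
theorem wo_val_min (y : ℕ) (j : Fin (N g)) :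
    ((wo g y j : Fin (Eb g + 1)) : ℕ) = min ((Md g y).factorization (N g - j)) (Eb g) := rfl

/-- the flags of a number, no hypothesis -/
theorem uw_iff (y j : ℕ) : uw g y j = true ↔
    j < N g ∧ (Md g y).factorization (N g - j) ≠ 0 ∧ Eb g ≠ 0 := by
  classical
  unfold uw
  rw [decide_eq_true_iff]
  constructor
  · rintro ⟨h, h1⟩
    have h2 : ((wo g y ⟨j, h⟩ : Fin (Eb g + 1)) : ℕ) ≠ 0 := fun h3 => h1 (Fin.ext h3)
    rw [wo_val_min] at h2
    simp only at h2
    exact ⟨h, by omega, by omega⟩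
  · rintro ⟨h, h1, h2⟩
    refine ⟨h, fun h3 => ?_⟩
    have h4 : ((wo g y ⟨j, h⟩ : Fin (Eb g + 1)) : ℕ) = 0 := by rw [h3]; rfl
    rw [wo_val_min] at h4
    simp only at h4
    omega

/-- the places of the primes of `m` -/
noncomputable def plc (g : Cfg) (m : ℕ) : Finset ℕ := m.primeFactors.image (fun p => N g - p)

theorem mem_plc (h : Fil g x i R m) {j : ℕ} (hj : j < N g) :
    j ∈ plc g m ↔ N g - j ∈ m.primeFactors := by
  unfold plc
  rw [mem_image]
  constructor
  · rintro ⟨p, hp, rfl⟩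
    have := h.le_N hp
    rwa [show N g - (N g - p) = p by omega]
  · intro h1
    exact ⟨_, h1, by omega⟩

theorem plc_inj (h : Fil g x i R m) : Set.InjOn (fun p => N g - p) (m.primeFactors : Set ℕ) := by
  intro p hp p' hp' hpp
  have h1 := h.le_N (Finset.mem_coe.1 hp)
  have h2 := h.le_N (Finset.mem_coe.1 hp')
  simp only at hpp
  omega

theorem plc_lt (h : Fil g x i R m) {j : ℕ} (hj : j ∈ plc g m) : j < N g := by
  unfold plc at hj
  obtain ⟨p, hp, rfl⟩ := mem_image.1 hj
  have h1 := h.le_N hp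
  have h2 := (Nat.prime_of_mem_primeFactors hp).pos
  omega

/-- **the word of `R` is the word of `R / m` with the places of `m` emptied** -/
theorem Fil.uw (h : Fil g x i R m) (hx : zs g ≤ x) :
    uw g R = emp (uw g (R / m)) (plc g m) := by
  funext j
  by_cases hj : j ∈ plc g m
  · rw [emp_mem hj]
    have hjN := plc_lt h hj
    have h1 := (mem_plc h hjN).1 hj
    have h2 : ¬ SK.uw g R j = true := by
      rw [uw_iff]
      rintro ⟨-, h3, -⟩
      apply h3
      rw [SK.Md_fac]
      have h4 := (h.2.2 _ h1).2.2.1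
      split_ifs
      · omega
      · rfl
    exact Bool.eq_false_iff.2 h2
  · rw [emp_not hj]
    have h2 : SK.uw g R j = true ↔ SK.uw g (R / m) j = true := by
      rw [uw_iff, uw_iff]
      refine and_congr_right fun hjN => ?_
      have h3 : N g - j ∉ m.primeFactors := fun h3 => hj ((mem_plc h hjN).2 h3)
      have h1 : m.factorization (N g - j) = 0 := by
        rw [← Nat.support_factorization, Finsupp.mem_support_iff, not_not] at h3
        exact h3
      rw [h.Md_fac hx, h1, add_zero]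
    rcases hb : SK.uw g R j with _ | _
    · rcases hb' : SK.uw g (R / m) j with _ | _
      · rfl
      · exact absurd (h2.2 hb') (by rw [hb]; simp)
    · exact (h2.1 hb).symm

/-- at the places of `m` the flag of the filled number is set -/
theorem Fil.uw_true (h : Fil g x i R m) (hx : zs g ≤ x) (hE : Eb g ≠ 0) {j : ℕ}
    (hj : j ∈ plc g m) : SK.uw g (R / m) j = true := by
  have hjN := plc_lt h hj
  have h1 := (mem_plc h hjN).1 hj
  rw [uw_iff]
  refine ⟨hjN, ?_, hE⟩
  rw [h.Md_fac hx]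
  have := (h.fac_ne h1).1
  omega

/-- the exponents of the centres are positive at the primes of `m` -/
theorem Fil.Eb_ne (h : Fil g x i R m) (hx : zs g ≤ x) {p : ℕ} (hp : p ∈ m.primeFactors)
    (hE : (SK.Qc g R).factorization p ≤ Eb g) : Eb g ≠ 0 := by
  rw [Qc_fac, if_pos (mem_PO.2 ⟨Nat.prime_of_mem_primeFactors hp,
    lt_of_le_of_lt hx (h.2.2 p hp).1, h.le_N hp⟩)] at hE
  have h1 := (h.2.2 p hp).2.2.1
  have h2 := (h.fac_ne hp).2.1
  omega

/-- the exponents of the centre of the filled number -/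
theorem Fil.Gd (h : Fil g x i R m) (hx : zs g ≤ x)
    (hE : ∀ p, (SK.Qc g R).factorization p ≤ Eb g) :
    0 < R / m ∧ ∀ p, (SK.Qc g (R / m)).factorization p ≤ Eb g :=
  fill_Gd h.pos hE h.dvd (h.flp hx)

/-- **two filled numbers of one number, with the same fill at the primes `≤ z g j`** -/
theorem Fil.Sf (h : Fil g x i R m) (hx : zs g ≤ x) {x' i' m' : ℕ} (h' : Fil g x' i' R m')
    (hx' : zs g ≤ x') {j : ℕ} (he : ∀ p, p ≤ z g j → m.factorization p = m'.factorization p) :
    Sf g j (R / m) (R / m') := by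
  refine ⟨(h.bl hx).trans (h'.bl hx').symm, fun k hk => Fin.ext ?_⟩
  rw [wo_val_min, wo_val_min, h.Md_fac hx, h'.Md_fac hx', he _ (by omega)]

/-- the filled number and the number filled at the primes `≤ z g j` only -/
theorem Fil.Sf_part (h : Fil g x i R m) (hx : zs g ≤ x) {m' j : ℕ} (hd : m' ∣ m)
    (he : ∀ p, p ≤ z g j → m.factorization p = m'.factorization p) :
    SK.Sf g j (R / m) (R / m') := h.Sf hx (h.of_dvd hd) hx he

/-- a number filled above `z g j` only -/
theorem Fil.Sf_self (h : Fil g x i R m) (hx : zs g ≤ x) {j : ℕ}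
    (he : ∀ p ∈ m.primeFactors, z g j < p) : SK.Sf g j (R / m) R := by
  have h1 := h.Sf_part hx (m' := 1) (j := j) (one_dvd _) fun p hp => by
    rw [Nat.factorization_one, Finsupp.zero_apply]
    by_contra hne
    have h2 : p ∈ m.primeFactors := by
      rw [← Nat.support_factorization, Finsupp.mem_support_iff]
      exact hne
    have := he p h2
    omega
  rwa [Nat.div_one] at h1

/-- the part of `m` at the primes `≤ t` -/
theorem Fil.prt_le (h : Fil g x i R m) (t : ℕ) : Fil g x i R (prt (fun p => p ≤ t) m) := by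
  refine h.of_dvd ?_
  have h1 := prt_mul (fun p => p ≤ t) h.m_pos.ne'
  exact ⟨_, h1.symm⟩

/-- **the part of `m` at the primes `≤ z g j`** : same future at the stage `j` -/
theorem Fil.Sf_prt (h : Fil g x i R m) (hx : zs g ≤ x) (j : ℕ) :
    SK.Sf g j (R / m) (R / prt (fun p => p ≤ z g j) m) := by
  classical
  refine h.Sf hx (h.prt_le _) hx fun p hp => ?_
  rw [prt_fac, if_pos hp]

/-- the part of `m` at the primes `≤ z g j` is a fill at the stage `j` -/
theorem Fil.prt_stage (h : Fil g x i R m) (j : ℕ) :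
    Fil g x j R (prt (fun p => p ≤ z g j) m) := by
  classical
  have h1 := prt_mul (fun p => p ≤ z g j) h.m_pos.ne'
  refine h.of_le ⟨_, h1.symm⟩ fun p hp => ?_
  rw [prt_primeFactors, mem_filter] at hp
  exact hp.2

/-- the deficit at the stage `j` (all the primes of `m` are `≤ z g j`) -/
theorem Fil.M (h : Fil g x i R m) (hx : zs g ≤ x) {j : ℕ} (hj : ∀ p ∈ m.primeFactors, p ≤ z g j) :
    M g j (R / m) = M g j R := by
  refine Nat.eq_of_factorization_eq (M_pos g j _).ne' (M_pos g j _).ne' fun p => ?_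
  unfold CF.M
  rw [od_fac, od_fac, h.kc hx, h.fac]
  split_ifs with hp
  · have h1 : m.factorization p = 0 := by
      by_contra hne
      have h2 : p ∈ m.primeFactors := by
        rw [← Nat.support_factorization, Finsupp.mem_support_iff]
        exact hne
      have h3 := hj p h2
      have h4 := (mem_PO.1 hp).2.1
      omega
    rw [h1, Nat.sub_zero]
  · rfl

/-- **the natural weight of the filled number** at a stage `j` with all the primes of `m` inside -/
theorem Fil.Wt' (h : Fil g x i R m) (hx : zs g ≤ x) {j : ℕ}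
    (hj : ∀ p ∈ m.primeFactors, p ≤ z g j) : Wt g j (R / m) = Wt g j R := by
  unfold SK.Wt
  rw [h.M hx hj]
  congr 1
  unfold xc
  exact prod_congr rfl fun p _ => by rw [h.kc hx]

/-- **the natural weight of the filled number** at its stage -/
theorem Fil.Wt (h : Fil g x i R m) (hx : zs g ≤ x) : Wt g i (R / m) = Wt g i R :=
  h.Wt' hx fun p hp => (h.2.2 p hp).2.1

/-- literal form of the word -/
theorem Fil.uw_ite (h : Fil g x i R m) (hx : zs g ≤ x) (j : ℕ) [Decidable (∃ p ∈ m.primeFactors,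
    j = N g - p)] : SK.uw g R j =
      if ∃ p ∈ m.primeFactors, j = N g - p then false else SK.uw g (R / m) j := by
  rw [h.uw hx]
  by_cases h1 : ∃ p ∈ m.primeFactors, j = N g - p
  · obtain ⟨p, hp, rfl⟩ := h1
    rw [if_pos ⟨p, hp, rfl⟩]
    exact emp_mem (mem_image.2 ⟨p, hp, rfl⟩)
  · rw [if_neg h1]
    refine emp_not fun h2 => h1 ?_
    obtain ⟨p, hp, h3⟩ := mem_image.1 h2
    exact ⟨p, hp, h3.symm⟩

/-- at the primes of `m` the filled number deviates -/
theorem Fil.uw_prime (h : Fil g x i R m) (hx : zs g ≤ x)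
    (hE : ∀ p, (SK.Qc g R).factorization p ≤ Eb g) {p : ℕ} (hp : p ∈ m.primeFactors) :
    SK.uw g (R / m) (N g - p) = true :=
  h.uw_true hx (h.Eb_ne hx hp (hE p)) (mem_image.2 ⟨p, hp, rfl⟩)

/-- at the primes of `m` the number itself does not deviate -/
theorem Fil.uw_prime' (h : Fil g x i R m) (hx : zs g ≤ x) {p : ℕ} (hp : p ∈ m.primeFactors) :
    SK.uw g R (N g - p) = false := by
  rw [h.uw hx]
  exact emp_mem (mem_image.2 ⟨p, hp, rfl⟩)

/-- literal form of the part of `m` at the primes `≤ z g j` -/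
theorem Fil.Sf_prod (h : Fil g x i R m) (hx : zs g ≤ x) (j : ℕ) :
    SK.Sf g j (R / m)
      (R / ∏ p ∈ m.primeFactors.filter (fun p => p ≤ z g j), p ^ m.factorization p) := by
  have h1 := h.Sf_prt hx j
  have h2 : prt (fun p => p ≤ z g j) m =
      ∏ p ∈ m.primeFactors.filter (fun p => p ≤ z g j), p ^ m.factorization p := by
    unfold prt
    congr 1
    ext p
    simp only [mem_filter]
  rwa [h2] at h1

/-- a fill is determined by its primes and the filled number -/
theorem Fil.fac_eq (h : Fil g x i R m) (hx : zs g ≤ x) {R' m' : ℕ} (h' : Fil g x i R' m')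
    (hy : R / m = R' / m') (hP : m.primeFactors = m'.primeFactors) : R = R' := by
  refine Nat.eq_of_factorization_eq h.1 h'.1 fun p => ?_
  by_cases hp : p ∈ m.primeFactors
  · have h1 := (h.2.2 p hp).2.2.1
    have h2 := (h'.2.2 p (hP ▸ hp)).2.2.1
    rw [h1, h2, ← h.kc hx, ← h'.kc hx, hy]
  · have hp' : p ∉ m'.primeFactors := hP ▸ hp
    rw [← Nat.support_factorization, Finsupp.mem_support_iff, not_not] at hp hp'
    have h1 := h.fac p
    have h2 := h'.fac p
    rw [hp, Nat.sub_zero] at h1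
    rw [hp', Nat.sub_zero] at h2
    rw [← h1, ← h2, hy]

end

/-! ### The weights -/

section

variable {c1 c : ℝ} {x i : ℕ}

theorem wf_le (h1 : 0 ≤ c1) (hc : 0 ≤ c) (a R m : ℕ) :
    wf g c1 c x a R m ≤ c ^ m.primeFactors.card := by
  unfold wf
  refine (prod_le_prod (fun p _ => dst_nonneg h1 hc x a R p)
    fun p _ => dst_le h1 hc x a R p).trans (le_of_eq ?_)
  rw [prod_const]

theorem wf_mul {a R m m' : ℕ} (h : Nat.Coprime m m') :
    wf g c1 c x a R (m * m') = wf g c1 c x a R m * wf g c1 c x a R m' := by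
  unfold wf
  rw [h.primeFactors_mul, prod_union h.disjoint_primeFactors]

/-- the weight of a fill as a product over places -/
theorem wf_eq_plc {a R m : ℕ} (h : Fil g x i R m) : wf g c1 c x a R m =
    ∏ j ∈ plc g m, dl (muw g c1 R) (uw g R) c (N g - z g a) (N g - x) j := by
  unfold wf plc
  rw [prod_image (plc_inj h)]
  rfl

/-- the weight of a fill in terms of the word of the filled number -/
theorem wf_eq_emp {a R m : ℕ} (h : Fil g x i R m) (hx : zs g ≤ x) : wf g c1 c x a R m =
    ∏ j ∈ plc g m, dl (muw g c1 (R / m)) (emp (uw g (R / m)) (plc g m)) c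
      (N g - z g a) (N g - x) j := by
  rw [wf_eq_plc h, ← h.uw hx, h.muw hx]

open Classical in
/-- **THE COLUMN**, fibres of size at most `K`: the numbers `ν e = y * m e` which become the same
number `y` when they are filled at `m e`. -/
theorem col_numK (h1 : 0 < c1) (hz : 2 ≤ c1 * zs g) (hc : 0 ≤ c) (hc1 : c < 1)
    (hx : zs g ≤ x) {β : Type*} (S : Finset β) (y K : ℕ) (ν m cc : β → ℕ)
    (hcc : ∀ e ∈ S, cc e ≤ i) (hF : ∀ e ∈ S, Fil g x i (ν e) (m e))
    (hy : ∀ e ∈ S, ν e = y * m e)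
    (hE : ∀ e ∈ S, ∀ p, (Qc g (ν e)).factorization p ≤ Eb g)
    (hK : ∀ R, (S.filter (fun e => ν e = R)).card ≤ K) :
    ∑ e ∈ S, wf g c1 c x (cc e) (ν e) (m e) ≤ K * (1 / (1 - c)) := by
  have hyd : ∀ e ∈ S, ν e / m e = y := fun e he => by
    rw [hy e he, Nat.mul_div_cancel _ (hF e he).m_pos]
  have hμ : ∀ j, 0 ≤ muw g c1 y j := muw_nonneg h1.le y
  have hμ2 : ∀ j, muw g c1 y j ≤ 1 / 2 := fun j => muw_le h1 two_pos hz y j
  have e1 : ∑ e ∈ S, wf g c1 c x (cc e) (ν e) (m e) =
      ∑ e ∈ S, ∏ a ∈ plc g (m e), dl (muw g c1 y) (emp (uw g y) (plc g (m e))) c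
        (N g - z g (cc e)) (N g - x) a := by
    refine sum_congr rfl fun e he => ?_
    rw [wf_eq_emp (hF e he) hx, hyd e he]
  rw [e1]
  refine col_sum hμ hμ2 hc hc1 (m := N g - z g i) (e := N g - x) S (fun e => plc g (m e))
    (fun e => N g - z g (cc e)) K (fun e he => ?_) (fun e he a ha => ?_) fun B => ?_
  · have := z_anti g (hcc e he)
    omega
  · have hFe := hF e he
    refine ⟨?_, ?_⟩
    · unfold plc at ha
      obtain ⟨p, hp, rfl⟩ := mem_image.1 ha
      have := (hFe.2.2 p hp).2.1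
      omega
    · have h2 := (mem_plc hFe (plc_lt hFe ha)).1 ha
      have h3 := hFe.uw_true hx (hFe.Eb_ne hx h2 (hE e he _)) ha
      rwa [hyd e he] at h3
  · rcases (S.filter (fun e => plc g (m e) = B)).eq_empty_or_nonempty with h0 | ⟨e0, he0⟩
    · rw [h0, card_empty]
      exact Nat.zero_le _
    obtain ⟨he0S, he0B⟩ := mem_filter.1 he0
    refine le_trans (card_le_card fun e he => ?_) (hK (ν e0))
    obtain ⟨heS, heB⟩ := mem_filter.1 he
    refine mem_filter.2 ⟨heS, ?_⟩
    refine (hF e heS).fac_eq hx (hF e0 he0S) ((hyd e heS).trans (hyd e0 he0S).symm) ?_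
    have h2 : plc g (m e) = plc g (m e0) := heB.trans he0B.symm
    have key : ∀ e ∈ S, ∀ e' ∈ S, plc g (m e) = plc g (m e') →
        (m e).primeFactors ⊆ (m e').primeFactors := by
      intro e he e' he' hee p hp
      have hp1 := (hF e he).le_N hp
      have hp2 := (Nat.prime_of_mem_primeFactors hp).pos
      have e2 : N g - (N g - p) = p := by omega
      have h3 : N g - p ∈ plc g (m e) := (mem_plc (hF e he) (by omega)).2 (by rwa [e2])
      rw [hee] at h3
      have h4 := (mem_plc (hF e' he') (by omega)).1 h3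
      rwa [e2] at h4
    exact (key e heS e0 he0S h2).antisymm (key e0 he0S e heS h2.symm)

/-- **THE COLUMN** of 734's (X2) -/
theorem col_num (h1 : 0 < c1) (hz : 2 ≤ c1 * zs g) (hc : 0 ≤ c) (hc1 : c < 1)
    (hx : zs g ≤ x) {β : Type*} (S : Finset β) (y : ℕ) (ν m cc : β → ℕ)
    (hν : Set.InjOn ν S) (hcc : ∀ e ∈ S, cc e ≤ i) (hF : ∀ e ∈ S, Fil g x i (ν e) (m e))
    (hy : ∀ e ∈ S, ν e = y * m e)
    (hE : ∀ e ∈ S, ∀ p, (Qc g (ν e)).factorization p ≤ Eb g) :
    ∑ e ∈ S, wf g c1 c x (cc e) (ν e) (m e) ≤ 1 / (1 - c) := by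
  classical
  have h := col_numK (i := i) h1 hz hc hc1 hx S y 1 ν m cc hcc hF hy hE fun R => by
    rw [card_le_one]
    intro a ha b hb
    obtain ⟨ha1, ha2⟩ := mem_filter.1 ha
    obtain ⟨hb1, hb2⟩ := mem_filter.1 hb
    exact hν ha1 hb1 (ha2.trans hb2.symm)
  rwa [Nat.cast_one, one_mul] at h

end

end Vale.P028.SK
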