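-- RD-BASE b3ccd0c5edadea8718faef54f36c7e261877e494
import Vale.Agent.P028.MathlibUsed
import Vale.Agent.P028.RD.H734.LkX
import Vale.Agent.P028.R2.Form2
import Vale.Agent.P028.RD.R367.X2Out
attribute [-instance] ProperSMul.toContinuousSMul IsTopologicalTorsor.toContinuousSMul IdemSemiring.toCanonicallyOrderedAdd IdemSemiring.toMulLeftMono IdemSemiring.toMulRightMono AddQuantale.instAddLeftMono AddQuantale.instAddRightMono Quantale.instMulLeftMono Quantale.instMulRightMono FiniteDimensional.rclike_to_real IsScalarTower.complexToReal FiniteDimensional.complexToReal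

/-!
# The energy theorem at a cut with arbitrary weights of the fills

As `X2`, but the weight of the fill `m` of the group `e` is `∏ p ∣ m, d e p` with arbitrary
`d e p ≥ 0`; the mass bound (`MassW`) and the column bound (`ColW`) are hypotheses.
-/

namespace Vale.P028.SK

open Finset CF RN H669

variable {g : Cfg}

/-- the weight of a fill for given weights of the places -/
noncomputable def wd (d : ℕ → ℝ) (m : ℕ) : ℝ := ∏ p ∈ m.primeFactors, d p

/-- **the mass hypothesis** -/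
structure MassW (g : Cfg) (d : ℕ → ℝ) (K : ℝ) : Prop where
  nonneg : ∀ p, 0 ≤ d p
  mass : ∀ T : Finset ℕ, (∀ m ∈ T, m ≠ 0 ∧ ∀ p ∈ m.primeFactors, p ≤ N g) →
    ∑ m ∈ T, wd d m / m.totient ≤ K

/-- **the column hypothesis**: groups of the same size whose fills lead to the same number -/
def ColW (g : Cfg) (x : ℕ) {β : Type*} (S : Finset β) (nu : β → ℕ) (hl : β → ℤ) (cc : β → ℕ)
    (d : β → ℕ → ℝ) (K1 : ℝ) : Prop :=
  ∀ (i y : ℕ) (S' : Finset β) (m : β → ℕ), S' ⊆ S → (∀ e ∈ S', ∀ e' ∈ S', hl e = hl e') →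
    Set.InjOn nu S' → (∀ e ∈ S', cc e ≤ i ∧ Fil g x i (nu e) (m e) ∧ nu e = y * m e ∧
      wd (d e) (m e) ≠ 0) → ∑ e ∈ S', wd (d e) (m e) ≤ K1

variable {d : ℕ → ℝ} {K K1 : ℝ} {x i R m : ℕ}

theorem wd_nonneg (h : ∀ p, 0 ≤ d p) (m : ℕ) : 0 ≤ wd d m := prod_nonneg fun _ _ => h _

theorem wd_mul {m m' : ℕ} (h : m.Coprime m') : wd d (m * m') = wd d m * wd d m' := by
  unfold wd
  rw [h.primeFactors_mul, prod_union h.disjoint_primeFactors]

/-- the real dilution with an arbitrary end satisfies the mass hypothesis -/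
theorem massW_dl {c1 c : ℝ} (h1 : 0 < c1) (hc : 0 ≤ c) (R b e : ℕ) :
    MassW g (fun p => dl (muw g c1 R) (uw g R) c b e (N g - p)) (Real.exp (2 * c * c1)) :=
  ⟨fun _ => dl_nonneg hc (muw_nonneg h1.le R) _ _ _, fun _ hT => cut_tot_mass h1 hc hT⟩

theorem MassW.anti {d' : ℕ → ℝ} (h : MassW g d K) (h0 : ∀ p, 0 ≤ d' p) (hd : ∀ p, d' p ≤ d p) :
    MassW g d' K := by
  refine ⟨h0, fun T hT => le_trans (sum_le_sum fun m _ => ?_) (h.mass T hT)⟩
  exact div_le_div_of_nonneg_right (prod_le_prod (fun p _ => h0 p) fun p _ => hd p)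
    (Nat.cast_nonneg _)

theorem MassW.mono {K' : ℝ} (h : MassW g d K) (hK : K ≤ K') : MassW g d K' :=
  ⟨h.nonneg, fun T hT => (h.mass T hT).trans hK⟩

theorem MassW.K_ge (h : MassW g d K) : 1 ≤ K := by
  have h1 := h.mass {1} (fun m hm => by
    rw [mem_singleton.1 hm]
    exact ⟨one_ne_zero, fun p hp => absurd hp (by rw [Nat.primeFactors_one]; exact notMem_empty p)⟩)
  rw [sum_singleton] at h1
  simpa [wd] using h1

/-! ### The weights of the images -/

open Classical in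
/-- the weight of the fill `m` of `R` at the stage `i` -/
noncomputable def wLW (g : Cfg) (x i R : ℕ) (d : ℕ → ℝ) (m : ℕ) : ℝ :=
  if Fil g x i R m then wd d m else 0

theorem wLW_nonneg (h : ∀ p, 0 ≤ d p) (x i R m : ℕ) : 0 ≤ wLW g x i R d m := by
  unfold wLW
  split_ifs
  · exact wd_nonneg h _
  · exact le_rfl

theorem wLW_of (h : Fil g x i R m) : wLW g x i R d m = wd d m := if_pos h

theorem wLW_ne (h : wLW g x i R d m ≠ 0) : Fil g x i R m := by
  unfold wLW at h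
  by_contra hcon
  exact h (if_neg hcon)

/-- the weights decrease with the stage -/
theorem wLW_anti (h : ∀ p, 0 ≤ d p) {j : ℕ} (hij : i ≤ j) :
    wLW g x j R d m ≤ wLW g x i R d m := by
  by_cases hf : Fil g x j R m
  · rw [wLW_of hf, wLW_of (hf.stage_le hij)]
  · unfold wLW
    rw [if_neg hf]
    split_ifs
    · exact wd_nonneg h _
    · exact le_rfl

/-- **the mass of the images** -/
theorem wLW_mass (h : MassW g d K) (hR : 0 < R) (T : Finset ℕ) :
    ∑ m ∈ T, wLW g x i R d m * f g (R / m) ≤ K * f g R := by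
  classical
  have hfR : 0 ≤ f g R := f_nonneg g R
  have e1 : ∑ m ∈ T, wLW g x i R d m * f g (R / m) =
      ∑ m ∈ T.filter (fun m => Fil g x i R m), wd d m * f g (R / m) := by
    rw [sum_filter]
    refine sum_congr rfl fun m _ => ?_
    unfold wLW
    split_ifs
    · rfl
    · rw [zero_mul]
  rw [e1]
  calc ∑ m ∈ T.filter (fun m => Fil g x i R m), wd d m * f g (R / m)
      ≤ ∑ m ∈ T.filter (fun m => Fil g x i R m), wd d m / m.totient * f g R := by
        refine sum_le_sum fun m hm => ?_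
        have h2 := (mem_filter.1 hm).2
        calc wd d m * f g (R / m) ≤ wd d m * (f g R / m.totient) :=
              mul_le_mul_of_nonneg_left (f_div_le hR h2.dvd) (wd_nonneg h.nonneg _)
          _ = _ := by ring
    _ = (∑ m ∈ T.filter (fun m => Fil g x i R m), wd d m / m.totient) * f g R := by
        rw [sum_mul]
    _ ≤ _ := by
        refine mul_le_mul_of_nonneg_right ?_ hfR
        exact h.mass _ fun m hm =>
          ⟨(mem_filter.1 hm).2.m_pos.ne', fun p hp => (mem_filter.1 hm).2.le_N hp⟩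

/-- **the images outside the stage `i`** : `T` is closed under taking the part of a number at the
primes `≤ z g i`; `D` is constant on the classes of the stage `i`. -/
theorem wLW_outT (h : MassW g d K) {j : ℕ} (hji : j ≤ i) {T : Finset ℕ}
    (hT : ∀ m ∈ T, prt (fun p => p ≤ z g i) m ∈ T) {D : ℕ → ℝ}
    (hD0 : ∀ m ∈ T, Fil g x j R m → 0 ≤ D (R / m))
    (hD : ∀ m ∈ T, Fil g x j R m → D (R / m) = D (R / prt (fun p => p ≤ z g i) m)) :
    ∑ m ∈ T, wLW g x j R d m * (f g (R / m) * D (R / m)) ≤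
      K * ∑ m ∈ T, wLW g x i R d m * (f g (R / m) * D (R / m)) := by
  classical
  set F := T.filter (fun m => Fil g x j R m) with hF
  have e1 : ∑ m ∈ T, wLW g x j R d m * (f g (R / m) * D (R / m)) =
      ∑ m ∈ F, wd d m * (f g (R / m) * D (R / m)) := by
    rw [hF, sum_filter]
    refine sum_congr rfl fun m _ => ?_
    unfold wLW
    split_ifs
    · rfl
    · rw [zero_mul]
  have hmaps : ∀ m ∈ F, prt (fun p => p ≤ z g i) m ∈ T := fun m hm => hT m (mem_filter.1 hm).1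
  have hK0 : 0 ≤ K := zero_le_one.trans h.K_ge
  rw [e1, ← sum_fiberwise_of_maps_to hmaps, mul_sum]
  refine sum_le_sum fun k hk => ?_
  have hRHS : 0 ≤ wLW g x i R d k * (f g (R / k) * D (R / k)) := by
    by_cases hL : wLW g x i R d k = 0
    · rw [hL, zero_mul]
    · exact mul_nonneg (wLW_nonneg h.nonneg _ _ _ _) (mul_nonneg (f_nonneg g _)
        (hD0 k hk ((wLW_ne hL).stage_le hji)))
  set Fk := F.filter (fun m => prt (fun p => p ≤ z g i) m = k) with hFk
  rcases Fk.eq_empty_or_nonempty with hemp | ⟨m₀, hm₀⟩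
  · rw [hemp, sum_empty]
    exact mul_nonneg hK0 hRHS
  -- data of the elements of the fibre
  have hdat : ∀ m ∈ Fk, m ∈ T ∧ Fil g x j R m ∧ prt (fun p => p ≤ z g i) m = k ∧
      k * prt (fun p => ¬ p ≤ z g i) m = m ∧ Nat.Coprime k (prt (fun p => ¬ p ≤ z g i) m) := by
    intro m hm
    obtain ⟨hm1, hm2⟩ := mem_filter.1 hm
    obtain ⟨hm3, hm4⟩ := mem_filter.1 hm1
    have h2 := prt_mul (fun p => p ≤ z g i) hm4.m_pos.ne'
    have h3 := prt_coprime (fun p => p ≤ z g i) m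
    rw [hm2] at h2 h3
    exact ⟨hm3, hm4, hm2, h2, h3⟩
  obtain ⟨-, hF0, hk0, -, -⟩ := hdat m₀ hm₀
  have hFk' : Fil g x i R k := hk0 ▸ hF0.prt_stage i
  have hwk : 0 ≤ wd d k := wd_nonneg h.nonneg _
  rw [wLW_of hFk'] at hRHS ⊢
  have hRk : 0 < R / k := hFk'.div_pos
  have hfk := f_nonneg g (R / k)
  -- one term
  have hterm : ∀ m ∈ Fk, wd d m * (f g (R / m) * D (R / m)) ≤
      wd d k * (f g (R / k) * D (R / k)) *
        (wd d (prt (fun p => ¬ p ≤ z g i) m) /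
          (prt (fun p => ¬ p ≤ z g i) m).totient) := by
    intro m hm
    obtain ⟨b1, b2, b3, b4, b5⟩ := hdat m hm
    set m' := prt (fun p => ¬ p ≤ z g i) m with hm'
    have hDm : D (R / m) = D (R / k) := by rw [hD m b1 b2, b3]
    have hD0m : 0 ≤ D (R / k) := by
      rw [← hDm]
      exact hD0 m b1 b2
    have e2 : R / m = R / k / m' := by rw [Nat.div_div_eq_div_mul, b4]
    have hd : m' ∣ R / k := by
      have h3 : k * m' ∣ R := by rw [b4]; exact b2.dvd
      exact Nat.dvd_div_of_mul_dvd h3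
    have h4 : f g (R / m) ≤ f g (R / k) / m'.totient := by
      rw [e2]
      exact f_div_le hRk hd
    have e3 : wd d m = wd d k * wd d m' := by
      rw [← wd_mul b5, b4]
    have hw' : 0 ≤ wd d m' := wd_nonneg h.nonneg _
    rw [hDm, e3]
    calc wd d k * wd d m' * (f g (R / m) * D (R / k))
        ≤ wd d k * wd d m' * (f g (R / k) / m'.totient * D (R / k)) :=
          mul_le_mul_of_nonneg_left (mul_le_mul_of_nonneg_right h4 hD0m) (mul_nonneg hwk hw')
      _ = _ := by ring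
  refine (sum_le_sum hterm).trans ?_
  rw [← mul_sum, mul_comm]
  refine mul_le_mul_of_nonneg_right ?_ hRHS
  -- the mass of the outer parts
  have hinj : Set.InjOn (fun m => prt (fun p => ¬ p ≤ z g i) m) (Fk : Set ℕ) := by
    intro m hm m' hm' h
    have h2 := (hdat m hm).2.2.2.1
    have h3 := (hdat m' hm').2.2.2.1
    simp only at h
    rw [← h2, ← h3, h]
  rw [← sum_image (f := fun m => wd d m / (m.totient : ℝ)) hinj]
  refine h.mass _ fun v hv => ?_
  obtain ⟨m, hm, rfl⟩ := mem_image.1 hv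
  refine ⟨(prt_pos _ _).ne', fun p hp => ?_⟩
  rw [prt_primeFactors, mem_filter] at hp
  exact (hdat m hm).2.1.le_N hp.1

/-- **the images outside the stage `i`**, literal form -/
theorem wLW_out (h : MassW g d K) (hx : zs g ≤ x) {a : ℕ} (hai : a ≤ i) (n : ℕ) (D : ℕ → ℝ)
    (hD : ∀ m, Fil g x a R m → 0 ≤ D (R / m))
    (hDc : ∀ m m', Fil g x a R m → Fil g x a R m' → Sf g i (R / m) (R / m') →
      D (R / m) = D (R / m')) :
    ∑ m ∈ Icc 1 n, wLW g x a R d m * (f g (R / m) * D (R / m)) ≤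
      K * ∑ m ∈ Icc 1 n, wLW g x i R d m * (f g (R / m) * D (R / m)) := by
  refine wLW_outT h hai (fun m hm => ?_) (fun m _ h => hD m h) fun m _ h =>
    hDc m _ h (h.prt_le _) (h.Sf_prt hx i)
  have h2 := mem_Icc.1 hm
  refine mem_Icc.2 ⟨prt_pos _ _, le_trans ?_ h2.2⟩
  have h3 := prt_mul (fun p => p ≤ z g i) (show m ≠ 0 by omega)
  exact Nat.le_of_dvd (by omega) ⟨_, h3.symm⟩

/-! ### The column of pairs -/

open Classical in
/-- the column of pairs -/
theorem colW_pairs {β : Type*} {S : Finset β} {nu cc : β → ℕ} {hl : β → ℤ} {d : β → ℕ → ℝ}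
    (hcol : ColW g x S nu hl cc d K1)
    (hinj : ∀ e ∈ S, ∀ e' ∈ S, nu e = nu e' → hl e = hl e' → e = e') (T : Finset ℕ) (i y : ℕ)
    (l : ℤ) :
    ∑ e ∈ ((S.filter (fun e => cc e ≤ i)) ×ˢ T).filter (fun e => nu e.1 / e.2 = y ∧ hl e.1 = l),
      wLW g x i (nu e.1) (d e.1) e.2 ≤ K1 := by
  set E := ((S.filter (fun e => cc e ≤ i)) ×ˢ T).filter
    (fun e => nu e.1 / e.2 = y ∧ hl e.1 = l) with hE'
  set E1 := E.filter (fun e => Fil g x i (nu e.1) e.2 ∧ wd (d e.1) e.2 ≠ 0) with hE1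
  have e1 : ∑ e ∈ E, wLW g x i (nu e.1) (d e.1) e.2 = ∑ e ∈ E1, wd (d e.1) e.2 := by
    have h2 := sum_filter (s := E) (fun e => Fil g x i (nu e.1) e.2 ∧ wd (d e.1) e.2 ≠ 0)
      (fun e => wd (d e.1) e.2)
    rw [hE1, h2]
    refine sum_congr rfl fun e _ => ?_
    unfold wLW
    by_cases h3 : Fil g x i (nu e.1) e.2
    · rw [if_pos h3]
      by_cases h4 : wd (d e.1) e.2 = 0
      · rw [if_neg (fun h5 => h5.2 h4), h4]
      · rw [if_pos ⟨h3, h4⟩]
    · rw [if_neg h3, if_neg (fun h5 => h3 h5.1)]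
  have hmem : ∀ e ∈ E1, e.1 ∈ S ∧ cc e.1 ≤ i ∧ nu e.1 / e.2 = y ∧ hl e.1 = l ∧
      Fil g x i (nu e.1) e.2 ∧ wd (d e.1) e.2 ≠ 0 := by
    intro e he
    obtain ⟨he1, he2, he2'⟩ := mem_filter.1 he
    obtain ⟨he3, he4, he4'⟩ := mem_filter.1 he1
    obtain ⟨he5, -⟩ := mem_product.1 he3
    obtain ⟨he6, he7⟩ := mem_filter.1 he5
    exact ⟨he6, he7, he4, he4', he2, he2'⟩
  have hy : ∀ e ∈ E1, nu e.1 = y * e.2 := fun e he => by
    obtain ⟨-, -, h3, -, h4, -⟩ := hmem e he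
    rw [← h3]
    exact h4.mul_div.symm
  have hyp : ∀ e ∈ E1, 0 < y := fun e he => by
    rw [← (hmem e he).2.2.1]
    exact (hmem e he).2.2.2.2.1.div_pos
  have hm : ∀ e ∈ E1, nu e.1 / y = e.2 := fun e he => by
    rw [hy e he, Nat.mul_div_cancel_left _ (hyp e he)]
  have hinj1 : Set.InjOn (fun e : β × ℕ => e.1) (E1 : Set (β × ℕ)) := by
    intro e he e' he' h
    have h2 : e.1 = e'.1 := h
    refine Prod.ext h2 ?_
    rw [← hm e he, ← hm e' he', h2]
  have e2 : ∑ e ∈ E1, wd (d e.1) e.2 =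
      ∑ e ∈ E1.image (fun e : β × ℕ => e.1), wd (d e) (nu e / y) := by
    rw [sum_image hinj1]
    exact sum_congr rfl fun e he => by rw [hm e he]
  rw [e1, e2]
  have him : ∀ e ∈ E1.image (fun e : β × ℕ => e.1), ∃ n, (e, n) ∈ E1 := by
    intro e he
    obtain ⟨e', he', rfl⟩ := mem_image.1 he
    exact ⟨e'.2, he'⟩
  refine hcol i y _ (fun e => nu e / y) (fun e he => ?_) (fun e he e' he' => ?_) ?_
    (fun e he => ?_)
  · obtain ⟨n, hn⟩ := him e he
    exact (hmem _ hn).1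
  · obtain ⟨n, hn⟩ := him e he
    obtain ⟨n', hn'⟩ := him e' he'
    rw [(hmem _ hn).2.2.2.1, (hmem _ hn').2.2.2.1]
  · intro e he e' he' h
    obtain ⟨n, hn⟩ := him e (Finset.mem_coe.1 he)
    obtain ⟨n', hn'⟩ := him e' (Finset.mem_coe.1 he')
    exact hinj e (hmem _ hn).1 e' (hmem _ hn').1 h
      ((hmem _ hn).2.2.2.1.trans (hmem _ hn').2.2.2.1.symm)
  · obtain ⟨n, hn⟩ := him e he
    have h2 := hmem _ hn
    have h3 := hm _ hn
    have h4 := hy _ hn
    simp only at h2 h3 h4 ⊢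
    rw [h3]
    exact ⟨h2.2.1, h2.2.2.2.2.1, h4, h2.2.2.2.2.2⟩

/-- **the column hypothesis passes to the shifted numbers** -/
theorem ColW.shift {β : Type*} {S S2 : Finset β} {nu cc : β → ℕ} {hl : β → ℤ}
    {d : β → ℕ → ℝ} (hcol : ColW g x S nu hl cc d K1) {a b : ℕ} (hS : S2 ⊆ S) (l : ℤ)
    (hsh : ∀ e ∈ S2, ShP g x (nu e) a b) (hK1 : 0 ≤ K1) :
    ColW g x S2 (fun e => nu e / b * a) (fun e => hl e - l) cc d K1 := by
  intro i y S' m hS' hhl hinj hm
  rcases S'.eq_empty_or_nonempty with h0 | ⟨e0, he0⟩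
  · rw [h0, sum_empty]
    exact hK1
  have key : ∀ e ∈ S', nu e / m e * a = y * b ∧ Fil g x i (nu e) (m e) := by
    intro e he
    have hs := hsh e (hS' he)
    obtain ⟨-, h2, h3, -⟩ := hm e he
    simp only at h2 h3
    have h4 : Fil g x i (nu e) (m e) := (hs.fil x i (m e)).1 h2
    refine ⟨?_, h4⟩
    have h5 : nu e / b * b = nu e := Nat.div_mul_cancel hs.dvd
    have h6 : nu e / m e * m e = nu e := h4.mul_div
    refine Nat.eq_of_mul_eq_mul_right h4.m_pos ?_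
    calc nu e / m e * a * m e = (nu e / m e * m e) * a := by ring
      _ = nu e * a := by rw [h6]
      _ = (nu e / b * b) * a := by rw [h5]
      _ = (nu e / b * a) * b := by ring
      _ = (y * m e) * b := by rw [h3]
      _ = y * b * m e := by ring
  have ha : 0 < a := (hsh e0 (hS' he0)).a0
  refine hcol i (nu e0 / m e0) S' m (hS'.trans hS) (fun e he e' he' => ?_) ?_ fun e he => ?_
  · have h7 := hhl e he e' he'
    simp only at h7
    omega
  · intro e he e' he' h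
    refine hinj he he' ?_
    simp only
    rw [h]
  · obtain ⟨h1, -, -, h4⟩ := hm e he
    have h5 := key e he
    refine ⟨h1, h5.2, ?_, h4⟩
    have h6 : nu e / m e = nu e0 / m e0 :=
      Nat.eq_of_mul_eq_mul_right ha (h5.1.trans (key e0 he0).1.symm)
    rw [← h6]
    exact h5.2.mul_div.symm

/-! ### The instance -/

open Classical in
/-- **The family of the filled numbers is an instance of the leaking words.** -/
theorem lkXW (hx : zs g ≤ x) {β : Type*} {S : Finset β} {nu cc : β → ℕ} {hl : β → ℤ}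
    {d : β → ℕ → ℝ}
    (hinj : ∀ e ∈ S, ∀ e' ∈ S, nu e = nu e' → hl e = hl e' → e = e')
    (hpos : ∀ e ∈ S, 0 < nu e) (hM : ∀ e ∈ S, MassW g (d e) K)
    (hcol : ColW g x S nu hl cc d K1)
    (n : ℕ) {U : Finset ℕ} {Lz : Finset ℤ}
    (hU : ∀ e ∈ S, ∀ m, Fil g x (cc e) (nu e) m → nu e / m ∈ U) (hLz : ∀ e ∈ S, hl e ∈ Lz)
    (p : ℝ) :
    Dp.LkP (U ×ˢ Lz) (relX g) (fun a => f g a.1) S (Icc 1 n) cc (fun e => f g (nu e))
      (fun e m => (nu e / m, hl e)) (fun i e m => wLW g x i (nu e) (d e) m)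
      (fun _ _ => 1) p K K K1 where
  L_nonneg := fun i e he m _ => wLW_nonneg (hM e he).nonneg _ _ _ _
  μ_pos := fun _ _ _ _ => one_pos
  mem := fun e he m _ hne => mem_product.2 ⟨hU e he m (wLW_ne hne), hLz e he⟩
  mono := fun e he i hi m _ => wLW_anti (hM e he).nonneg hi
  mass := fun e he => by
    simp only [Real.one_rpow, mul_one]
    exact wLW_mass (hM e he) (hpos e he) _
  out := fun e he i hi D hD hDc => by
    have hm : ∀ m, Fil g x (cc e) (nu e) m → (nu e / m, hl e) ∈ U ×ˢ Lz := fun m hm =>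
      mem_product.2 ⟨hU e he m hm, hLz e he⟩
    exact wLW_out (hM e he) hx hi n (fun y => D (y, hl e))
      (fun m h => hD _ (hm m h)) fun m m' h h' hs => hDc _ (hm m h) _ (hm m' h') ⟨hs, rfl⟩
  col := fun i y _ => by
    simp only [mul_one]
    refine le_trans (le_of_eq ?_) (colW_pairs hcol hinj (Icc 1 n) i y.1 y.2)
    refine sum_congr ?_ fun _ _ => rfl
    ext e
    simp only [mem_filter, Prod.ext_iff]

/-! ### The theorem for one pattern and one gap -/

/-- the bound of one pair of groups with the exponent `θ` on the side of `e` -/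
noncomputable def bdW (g : Cfg) (i : ℕ) (θ : ℝ) (R R' : ℕ) (d d' : ℕ → ℝ) (F F' : ℝ)
    (u1 u2 v1 v2 : ℕ) : ℝ :=
  wd d u1 * wd d' v1 * ((u2 : ℝ) * v2) ^ (min θ (1 - θ) - 2 / 5) *
    ((F * Wt g i R' / (u1 * u2)) ^ θ * (F' * Wt g i R / (v1 * v2)) ^ (1 - θ))

theorem bdW_nonneg (i : ℕ) (θ : ℝ) (R R' : ℕ) {d d' : ℕ → ℝ} (hd : ∀ p, 0 ≤ d p)
    (hd' : ∀ p, 0 ≤ d' p) {F F' : ℝ} (hF : 0 ≤ F) (hF' : 0 ≤ F') (u1 u2 v1 v2 : ℕ) :
    0 ≤ bdW g i θ R R' d d' F F' u1 u2 v1 v2 := by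
  have h2 := wd_nonneg hd u1
  have h3 := wd_nonneg hd' v1
  have h4 := Wt_nonneg (g := g) i R
  have h5 := Wt_nonneg (g := g) i R'
  unfold bdW
  positivity

/-- **The energy theorem at a cut, arbitrary weights**, one rest pattern and one gap -/
theorem x2pW {θ : ℝ} (hθ : 0 < θ) (hθ' : θ < 1) (hx : zs g ≤ x)
    {β : Type*} {S : Finset β} {nu : β → ℕ} {hl : β → ℤ} {cc : β → ℕ} {Fm : β → ℝ}
    (HF : FamX g x S nu hl Fm) {d : β → ℕ → ℝ} (hM : ∀ e ∈ S, MassW g (d e) K)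
    (hcol : ColW g x S nu hl cc d K1) (hK0 : 0 ≤ K) (hK1 : 0 ≤ K1)
    (a b : ℕ) (l : ℤ) (_hab : a.Coprime b) (ha : 0 < a) (hb : 0 < b)
    (I : Finset ℕ) (E : ℕ → β → β → ℝ) (hI : ∀ i ∈ I, x ≤ z g i)
    (hE : ∀ i ∈ I, ∀ e ∈ S, ∀ e' ∈ S, 0 ≤ E i e e' ∧ (E i e e' ≠ 0 → max (cc e) (cc e') = i ∧
      hl e' - hl e = l ∧ ∃ u1 v1 H, PairX g x i (nu e) (nu e') u1 a v1 b H ∧
        E i e e' ≤ bdW g i θ (nu e) (nu e') (d e) (d e') (Fm e) (Fm e') u1 a v1 b)) :
    ∑ i ∈ I, ∑ e ∈ S, ∑ e' ∈ S, E i e e' ≤ K1 * K * K * (1 / θ + 1 / (1 - θ)) *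
      ((a : ℝ) * b) ^ (-(2 / 5) : ℝ) *
      ((∑ e ∈ S.filter (fun e => (a * b).primeFactors ⊆ Dvx g x (nu e)), Fm e) ^ θ *
        (∑ e ∈ S.filter (fun e => (a * b).primeFactors ⊆ Dvx g x (nu e)), Fm e) ^ (1 - θ)) := by
  classical
  have hθ1 : 0 < 1 - θ := by linarith
  set D := (a * b).primeFactors with hD
  -- trivial case
  rcases I.eq_empty_or_nonempty with hI0 | ⟨i₀, hi₀⟩
  · rw [hI0, sum_empty]
    refine mul_nonneg (mul_nonneg (by positivity) (by positivity)) (mul_nonneg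
      (Real.rpow_nonneg (sum_nonneg fun e he => HF.mass e (mem_filter.1 he).1) _)
      (Real.rpow_nonneg (sum_nonneg fun e he => HF.mass e (mem_filter.1 he).1) _))
  have hzz : ∀ j, zs g ≤ z g j := zs_le_z_of (hx.trans (hI i₀ hi₀))
  -- the families
  set SD := S.filter (fun e => D ⊆ Dvx g x (nu e)) with hSD
  set S2 := SD.filter (fun e => ShP g x (nu e) a b) with hS2
  set nu2 : β → ℕ := fun e => nu e / b * a with hnu2
  have hSDS : ∀ e ∈ SD, e ∈ S := fun e he => (mem_filter.1 he).1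
  have hS2S : ∀ e ∈ S2, e ∈ S ∧ ShP g x (nu e) a b := fun e he =>
    ⟨hSDS e (mem_filter.1 he).1, (mem_filter.1 he).2⟩
  set n := S.sup nu + S.sup nu2 with hn
  have hn1 : ∀ e ∈ S, nu e ≤ n := fun e he => (le_sup (f := nu) he).trans (Nat.le_add_right _ _)
  have hn2 : ∀ e ∈ S, nu2 e ≤ n := fun e he => (le_sup (f := nu2) he).trans (Nat.le_add_left _ _)
  set U := (Icc 1 n).filter (fun y => ∀ p, (Qc g y).factorization p ≤ Eb g) with hUdef
  have hU : Gd g U := fun y hy => ⟨(mem_Icc.1 (mem_filter.1 hy).1).1, (mem_filter.1 hy).2⟩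
  set Lz := S.image hl ∪ S.image (fun e => hl e - l) with hLz
  have hUm : ∀ {R j m : ℕ}, R ≤ n → (∀ p, (Qc g R).factorization p ≤ Eb g) → Fil g x j R m →
      R / m ∈ U := by
    intro R j m hR hq hF
    have h2 := hF.Gd hx hq
    exact mem_filter.2 ⟨mem_Icc.2 ⟨h2.1, (Nat.div_le_self _ _).trans hR⟩, h2.2⟩
  have hgd2 : ∀ e ∈ S2, ∀ p, (Qc g (nu2 e)).factorization p ≤ Eb g := by
    intro e he p
    simp only [hnu2]
    rw [(hS2S e he).2.Qc]
    exact HF.gd e (hS2S e he).1 p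
  have hcolSD : ColW g x SD nu hl cc d K1 := fun i y S' m hS' h1 h2 h3 =>
    hcol i y S' m (fun e he => hSDS e (hS' he)) h1 h2 h3
  have hcolS2 : ColW g x S2 nu2 (fun e => hl e - l) cc d K1 :=
    hcol.shift (fun e he => (hS2S e he).1) l (fun e he => (hS2S e he).2) hK1
  have H1 := lkXW hx (S := SD) (nu := nu) (cc := cc) (hl := hl)
    (fun e he e' he' => HF.inj e (hSDS e he) e' (hSDS e' he')) (fun e he => HF.pos e (hSDS e he))
    (fun e he => hM e (hSDS e he)) hcolSD n (U := U) (Lz := Lz)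
    (fun e he m hm => hUm (hn1 e (hSDS e he)) (HF.gd e (hSDS e he)) hm)
    (fun e he => mem_union_left _ (mem_image_of_mem _ (hSDS e he))) (1 / θ)
  have H2 := lkXW hx (S := S2) (nu := nu2) (cc := cc) (hl := fun e => hl e - l)
    (fun e he e' he' h2 h3 => by
      have e1 := hS2S e he
      have e2 := hS2S e' he'
      refine HF.inj e e1.1 e' e2.1 ?_ (by omega)
      simp only [hnu2] at h2
      have h4 := Nat.eq_of_mul_eq_mul_right ha h2
      rw [← Nat.div_mul_cancel e1.2.dvd, ← Nat.div_mul_cancel e2.2.dvd, h4])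
    (fun e he => (hS2S e he).2.pos) (fun e he => hM e (hS2S e he).1) hcolS2 n (U := U)
    (Lz := Lz)
    (fun e he m hm => hUm (hn2 e (hS2S e he).1) (hgd2 e he) hm)
    (fun e he => mem_union_right _ (mem_image_of_mem (fun e => hl e - l) (hS2S e he).1))
    (1 / (1 - θ))
  have hpq : (1 / θ).HolderConjugate (1 / (1 - θ)) := by
    rw [Real.holderConjugate_iff]
    refine ⟨by rw [lt_div_iff₀ hθ]; linarith, ?_⟩
    rw [one_div, one_div, inv_inv, inv_inv]
    ring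
  have HN := nstX (Lz := Lz) hU hzz
  set ξ : β → ℝ := fun e => (Fm e / f g (nu e)) ^ θ with hξ
  set η : β → ℝ := fun e => (Fm e / f g (nu2 e)) ^ (1 - θ) with hη
  have hf1 : ∀ e ∈ SD, 0 < f g (nu e) := fun e he => f_posX (HF.pos e (hSDS e he))
  have hf2 : ∀ e ∈ S2, 0 < f g (nu2 e) := fun e he => f_posX (hS2S e he).2.pos
  set w : ℝ := ((a : ℝ) * b) ^ (-(2 / 5) : ℝ) with hw
  have ha0 : (0 : ℝ) < a := by exact_mod_cast ha
  have hb0 : (0 : ℝ) < b := by exact_mod_cast hb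
  have hw0 : 0 < w := Real.rpow_pos_of_pos (mul_pos ha0 hb0) _
  -- only the participants count
  have hpart : ∀ i ∈ I, ∀ e ∈ S, ∀ e' ∈ S, E i e e' ≠ 0 → e ∈ SD ∧ e' ∈ S2 := by
    intro i hi e he e' he' hne
    obtain ⟨-, -, u1, v1, H, hP, -⟩ := (hE i hi e he e' he').2 hne
    have h2 := hP.sub
    exact ⟨mem_filter.2 ⟨he, h2.1⟩, mem_filter.2 ⟨mem_filter.2 ⟨he', h2.2⟩,
      hP.shp hx (HF.gd e he)⟩⟩
  have e0 : ∑ i ∈ I, ∑ e ∈ S, ∑ e' ∈ S, E i e e' = ∑ i ∈ I, ∑ e ∈ SD, ∑ e' ∈ S2, E i e e' := by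
    refine sum_congr rfl fun i hi => ?_
    rw [← sum_subset (filter_subset _ S : SD ⊆ S)]
    · refine sum_congr rfl fun e he => ?_
      refine (sum_subset (fun e' he' => (hS2S e' he').1) fun e' he' hne => ?_).symm
      by_contra h0
      exact hne (hpart i hi e (hSDS e he) e' he' h0).2
    · intro e he hne
      refine sum_eq_zero fun e' he' => ?_
      by_contra h0
      exact hne (hpart i hi e he e' he' h0).1
  have key := Dp.form2 HN hpq H1 H2 hK0 hK0 hK1 (ξ₁ := ξ) (ξ₂ := η)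
    (fun e he => Real.rpow_nonneg (div_nonneg (HF.mass e (hSDS e he)) (hf1 e he).le) _)
    (fun e he => Real.rpow_nonneg (div_nonneg (HF.mass e (hS2S e he).1) (hf2 e he).le) _)
    (fun e he => (hf1 e he).le) (fun e he => (hf2 e he).le) I
    (fun i e e' => w⁻¹ * E i e e') ?_
  · have s1 : ∑ e ∈ SD, f g (nu e) * ξ e ^ (1 / θ) = ∑ e ∈ SD, Fm e := by
      refine sum_congr rfl fun e he => ?_
      have h2 := hf1 e he
      simp only [hξ]
      rw [← Real.rpow_mul (div_nonneg (HF.mass e (hSDS e he)) h2.le), mul_one_div_cancel hθ.ne',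
        Real.rpow_one, mul_div_cancel₀ _ h2.ne']
    have s2 : ∑ e ∈ S2, f g (nu2 e) * η e ^ (1 / (1 - θ)) = ∑ e ∈ S2, Fm e := by
      refine sum_congr rfl fun e he => ?_
      have h2 := hf2 e he
      simp only [hη]
      rw [← Real.rpow_mul (div_nonneg (HF.mass e (hS2S e he).1) h2.le), mul_one_div_cancel hθ1.ne',
        Real.rpow_one, mul_div_cancel₀ _ h2.ne']
    rw [s1, s2, one_div_one_div, one_div_one_div] at key
    have s3 : ∑ e ∈ S2, Fm e ≤ ∑ e ∈ SD, Fm e :=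
      sum_le_sum_of_subset_of_nonneg (filter_subset _ _) fun e he _ => HF.mass e (hSDS e he)
    have s4 : 0 ≤ ∑ e ∈ S2, Fm e := sum_nonneg fun e he => HF.mass e (hS2S e he).1
    have s5 : ∑ i ∈ I, ∑ e ∈ SD, ∑ e' ∈ S2, w⁻¹ * E i e e' =
        w⁻¹ * ∑ i ∈ I, ∑ e ∈ SD, ∑ e' ∈ S2, E i e e' := by
      simp only [mul_sum]
    rw [s5] at key
    rw [e0]
    have s6 : 0 ≤ ∑ e ∈ SD, Fm e := s4.trans s3
    calc ∑ i ∈ I, ∑ e ∈ SD, ∑ e' ∈ S2, E i e e' =
          w * (w⁻¹ * ∑ i ∈ I, ∑ e ∈ SD, ∑ e' ∈ S2, E i e e') := by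
          rw [mul_inv_cancel_left₀ hw0.ne']
      _ ≤ w * (K1 * K * K *
          (1 / θ + 1 / (1 - θ)) * ((∑ e ∈ SD, Fm e) ^ θ * (∑ e ∈ SD, Fm e) ^ (1 - θ))) := by
          refine mul_le_mul_of_nonneg_left (key.trans ?_) hw0.le
          refine mul_le_mul_of_nonneg_left (mul_le_mul_of_nonneg_left
            (Real.rpow_le_rpow s4 s3 hθ1.le) (Real.rpow_nonneg s6 _)) (by positivity)
      _ = _ := by ring
  · intro i hi e he e' he'
    have heS := hSDS e he
    have he'S := hS2S e' he'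
    obtain ⟨hE0, hE1⟩ := hE i hi e heS e' he'S.1
    refine ⟨mul_nonneg (inv_nonneg.2 hw0.le) hE0, fun hne => ?_⟩
    have hne' : E i e e' ≠ 0 := fun h0 => hne (by rw [h0, mul_zero])
    obtain ⟨hmax, hll, u1, v1, H, hP, hbd⟩ := hE1 hne'
    refine ⟨hmax, u1, ?_, v1, ?_, ?_, ?_, ?_, ?_⟩
    · exact mem_Icc.2 ⟨hP.fil.m_pos, (Nat.le_of_dvd hP.fil.pos hP.fil.dvd).trans (hn1 e heS)⟩
    · exact mem_Icc.2 ⟨hP.fil'.m_pos, (Nat.le_of_dvd he'S.2.pos
        ((he'S.2.fil x i v1).2 hP.fil').dvd).trans (hn2 e' he'S.1)⟩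
    · exact mem_product.2 ⟨hUm (hn1 e heS) (HF.gd e heS) hP.fil,
        mem_union_left _ (mem_image_of_mem _ heS)⟩
    · exact mem_product.2 ⟨hUm (hn2 e' he'S.1) (hgd2 e' he') ((he'S.2.fil x i v1).2 hP.fil'),
        mem_union_right _ (mem_image_of_mem (fun e => hl e - l) he'S.1)⟩
    · refine ⟨?_, ?_⟩
      · simp only [hnu2]
        rw [hP.div_eq]
        exact hP.sf.symm
      · simp only
        omega
    · -- the inequality
      have hF1 := hP.fil
      have hF2 : Fil g x i (nu2 e') v1 := (he'S.2.fil x i v1).2 hP.fil'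
      have l1 : wLW g x i (nu e) (d e) u1 = wd (d e) u1 := wLW_of hF1
      have l2 : wLW g x i (nu2 e') (d e') v1 = wd (d e') v1 := wLW_of hF2
      have hdiv : nu2 e' / v1 = H := hP.div_eq
      simp only
      rw [l1, l2, hdiv]
      have hWt : Wt g i H = Wt g i (nu e') := by
        rw [← hdiv, hF2.Wt hx]
        exact he'S.2.Wt fun p hp => (hP.dev p hp).2.1
      have hWt1 : Wt g i (nu e / u1) = Wt g i (nu e) := hF1.Wt hx
      have hgH : 0 < H ∧ ∀ p, (Qc g H).factorization p ≤ Eb g := by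
        rw [← hdiv]
        exact hF2.Gd hx (hgd2 e' he')
      have hg1 := hF1.Gd hx (HF.gd e heS)
      have p1 := f_eq_Wt_pc (i := i) (hzz i) hg1.1 hg1.2
      have p2 := f_eq_Wt_pc (i := i) (hzz i) hgH.1 hgH.2
      have p3 : pcU g i H = pcU g i (nu e / u1) := pcU_congr hP.sf
      rw [hWt1] at p1
      have hku1 : (0 : ℝ) < u1 := by exact_mod_cast hF1.m_pos
      have hkv1 : (0 : ℝ) < v1 := by exact_mod_cast hF2.m_pos
      have hker := kernel_ineq (θ := θ) (F := Fm e) (F' := Fm e') (W := Wt g i (nu e))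
        (W' := Wt g i (nu e')) (P1 := f g (nu e / u1)) (PH := f g H) (r := f g (nu e))
        (r' := f g (nu2 e')) (u := u1) (v := v1) (a := a) (b := b) hθ hθ' (HF.mass e heS)
        (HF.mass e' he'S.1) (Wt_nonneg _ _) (Wt_nonneg _ _) (f_nonneg g _) (f_nonneg g _)
        (hf1 e he) (hf2 e' he') hku1 hkv1 ha0 hb0
        (by have := f_mul_le (g := g) hg1.1 hF1.m_pos
            rwa [hF1.mul_div] at this)
        (by have e5 := f_mul_le (g := g) hgH.1 hF2.m_pos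
            have e6 : H * v1 = nu2 e' := hP.H_eq
            rwa [e6] at e5)
        (by rw [p1, p2, hWt, p3]; ring)
      rw [hWt]
      have hw1 : 0 ≤ wd (d e) u1 := wd_nonneg (hM e heS).nonneg _
      have hw2 : 0 ≤ wd (d e') v1 := wd_nonneg (hM e' he'S.1).nonneg _
      have hpat := pat_ineq ha hb θ
      have hXi : 0 ≤ ξ e * η e' * (f g (nu e / u1) * Wt g i (nu e')) := by
        refine mul_nonneg (mul_nonneg ?_ ?_) (mul_nonneg (f_nonneg g _) (Wt_nonneg _ _))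
        · exact Real.rpow_nonneg (div_nonneg (HF.mass e heS) (hf1 e he).le) _
        · exact Real.rpow_nonneg (div_nonneg (HF.mass e' he'S.1) (hf2 e' he').le) _
      have hb1 : bdW g i θ (nu e) (nu e') (d e) (d e') (Fm e) (Fm e') u1 a v1 b ≤
          w * (wd (d e) u1 * wd (d e') v1 *
            (ξ e * η e' * (f g (nu e / u1) * Wt g i (nu e')))) := by
        unfold bdW
        calc wd (d e) u1 * wd (d e') v1 *
              ((a : ℝ) * b) ^ (min θ (1 - θ) - 2 / 5) *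
              ((Fm e * Wt g i (nu e') / (u1 * a)) ^ θ *
                (Fm e' * Wt g i (nu e) / (v1 * b)) ^ (1 - θ)) ≤
              wd (d e) u1 * wd (d e') v1 *
              ((a : ℝ) * b) ^ (min θ (1 - θ) - 2 / 5) *
              ((a : ℝ) ^ (-θ) * (b : ℝ) ^ (-(1 - θ)) * ((Fm e / f g (nu e)) ^ θ *
                (Fm e' / f g (nu2 e')) ^ (1 - θ) * (f g (nu e / u1) * Wt g i (nu e')))) :=
              mul_le_mul_of_nonneg_left hker (by positivity)
          _ = (((a : ℝ) * b) ^ (min θ (1 - θ) - 2 / 5) *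
                ((a : ℝ) ^ (-θ) * (b : ℝ) ^ (-(1 - θ)))) *
              (wd (d e) u1 * wd (d e') v1 *
                (ξ e * η e' * (f g (nu e / u1) * Wt g i (nu e')))) := by
              simp only [hξ, hη]
              ring
          _ ≤ _ := mul_le_mul_of_nonneg_right hpat (mul_nonneg (mul_nonneg hw1 hw2) hXi)
      calc w⁻¹ * E i e e' ≤ w⁻¹ * (w * (wd (d e) u1 *
            wd (d e') v1 *
            (ξ e * η e' * (f g (nu e / u1) * Wt g i (nu e'))))) :=
            mul_le_mul_of_nonneg_left (hbd.trans hb1) (inv_nonneg.2 hw0.le)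
        _ = _ := by
            rw [inv_mul_cancel_left₀ hw0.ne']
            ring

/-! ### All patterns and gaps -/

/-- **The energy theorem at a cut, arbitrary weights**, one exponent -/
theorem x2tW {θ : ℝ} (hθ : 0 < θ) (hθ' : θ < 1) (hx : zs g ≤ x)
    {β : Type*} {S : Finset β} {nu : β → ℕ} {hl : β → ℤ} {cc : β → ℕ} {Fm : β → ℝ}
    (hF : FamX g x S nu hl Fm) {d : β → ℕ → ℝ} (hM : ∀ e ∈ S, MassW g (d e) K)
    (hcol : ColW g x S nu hl cc d K1) (hK0 : 0 ≤ K) (hK1 : 0 ≤ K1)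
    {A B : ℝ} {bt : ℤ → ℝ} (hA : 0 ≤ A) (hbt : ∀ l, 0 ≤ bt l)
    (hB : ∀ T : Finset ℤ, ∑ l ∈ T, bt l ≤ B)
    (I : Finset ℕ) (E : ℕ → β → β → ℝ) (hI : ∀ i ∈ I, x ≤ z g i)
    (hE : ∀ i ∈ I, ∀ e ∈ S, ∀ e' ∈ S, 0 ≤ E i e e' ∧ (E i e e' ≠ 0 → max (cc e) (cc e') = i ∧
      ∃ u1 u2 v1 v2 H, PairX g x i (nu e) (nu e') u1 u2 v1 v2 H ∧
        E i e e' ≤ A * bt (hl e' - hl e) *
          bdW g i θ (nu e) (nu e') (d e) (d e') (Fm e) (Fm e') u1 u2 v1 v2)) :
    ∑ i ∈ I, ∑ e ∈ S, ∑ e' ∈ S, E i e e' ≤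
      K1 * K * K * (1 / θ + 1 / (1 - θ)) * Real.exp 1 * A * B * ∑ e ∈ S, Fm e := by
  classical
  have hθ1 : 0 < 1 - θ := by linarith
  set C : ℝ := K1 * K * K * (1 / θ + 1 / (1 - θ)) with hCdef
  have hC : 0 ≤ C := by positivity
  -- the pattern of a triple
  let Q : ℕ → β → β → ℕ × ℕ → Prop := fun i e e' t =>
    ∃ u1 v1 H, PairX g x i (nu e) (nu e') u1 t.1 v1 t.2 H ∧
      E i e e' ≤ A * bt (hl e' - hl e) *
        bdW g i θ (nu e) (nu e') (d e) (d e') (Fm e) (Fm e') u1 t.1 v1 t.2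
  let pat : ℕ → β → β → ℕ × ℕ := fun i e e' => Classical.epsilon (Q i e e')
  have hpat : ∀ i ∈ I, ∀ e ∈ S, ∀ e' ∈ S, E i e e' ≠ 0 → Q i e e' (pat i e e') := by
    intro i hi e he e' he' hne
    obtain ⟨-, h2⟩ := hE i hi e he e' he'
    obtain ⟨-, u1, u2, v1, v2, H, h3, h4⟩ := h2 hne
    exact Classical.epsilon_spec (p := Q i e e') ⟨(u2, v2), u1, v1, H, h3, h4⟩
  -- the classes
  let k : ℕ → β → β → (ℕ × ℕ) × ℤ := fun i e e' => (pat i e e', hl e' - hl e)
  let T : Finset (ℕ × ℕ) := ((I ×ˢ (S ×ˢ S)).filter (fun y => E y.1 y.2.1 y.2.2 ≠ 0)).image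
    (fun y => pat y.1 y.2.1 y.2.2)
  let L : Finset ℤ := (S ×ˢ S).image (fun y => hl y.2 - hl y.1)
  have hT : ∀ i ∈ I, ∀ e ∈ S, ∀ e' ∈ S, E i e e' ≠ 0 → k i e e' ∈ T ×ˢ L := by
    intro i hi e he e' he' hne
    refine mem_product.2 ⟨mem_image.2 ⟨(i, e, e'), mem_filter.2 ⟨?_, hne⟩, rfl⟩,
      mem_image.2 ⟨(e, e'), mem_product.2 ⟨he, he'⟩, rfl⟩⟩
    exact mem_product.2 ⟨hi, mem_product.2 ⟨he, he'⟩⟩
  rw [sum_class I S E k (T ×ˢ L) hT, sum_product]
  have hTp : ∀ t ∈ T, t.1.Coprime t.2 ∧ 0 < t.1 ∧ 0 < t.2 := by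
    intro t ht
    obtain ⟨y, hy, rfl⟩ := mem_image.1 ht
    obtain ⟨hy1, hy2⟩ := mem_filter.1 hy
    obtain ⟨hi, hy3⟩ := mem_product.1 hy1
    obtain ⟨he, he'⟩ := mem_product.1 hy3
    obtain ⟨u1, v1, H, h3, -⟩ := hpat y.1 hi y.2.1 he y.2.2 he' hy2
    exact ⟨h3.cop, h3.pos.1, h3.pos.2⟩
  -- the mass compatible with a pattern
  let P : ℕ × ℕ → β → Prop := fun t e => (t.1 * t.2).primeFactors ⊆ Dvx g x (nu e)
  have hm0 : ∀ t, 0 ≤ ∑ e ∈ S.filter (P t), Fm e := fun t =>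
    sum_nonneg fun e he => hF.mass e (mem_filter.1 he).1
  have key : ∀ t ∈ T, ∀ l ∈ L,
      ∑ i ∈ I, ∑ e ∈ S, ∑ e' ∈ S, (if k i e e' = (t, l) then E i e e' else 0) ≤
        (A * bt l) * (C * (((t.1 : ℝ) * t.2) ^ (-(2 / 5) : ℝ) * ∑ e ∈ S.filter (P t), Fm e)) := by
    intro t ht l _
    have hX := x2pW hθ hθ' hx hF hM hcol hK0 hK1 t.1 t.2 l (hTp t ht).1 (hTp t ht).2.1
      (hTp t ht).2.2
      I (fun i e e' => if k i e e' = (t, l) then E i e e' / (A * bt l) else 0) hI ?_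
    · have e1 : (∑ e ∈ S.filter (P t), Fm e) ^ θ * (∑ e ∈ S.filter (P t), Fm e) ^ (1 - θ) =
          ∑ e ∈ S.filter (P t), Fm e := by
        rcases (hm0 t).eq_or_lt with h0 | h0
        · rw [← h0, Real.zero_rpow hθ.ne', zero_mul]
        · rw [← Real.rpow_add h0]
          simp
      have e2 : ∑ i ∈ I, ∑ e ∈ S, ∑ e' ∈ S, (if k i e e' = (t, l) then E i e e' else 0) =
          (A * bt l) * ∑ i ∈ I, ∑ e ∈ S, ∑ e' ∈ S,
            (if k i e e' = (t, l) then E i e e' / (A * bt l) else 0) := by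
        rw [mul_sum]
        refine sum_congr rfl fun i hi => ?_
        rw [mul_sum]
        refine sum_congr rfl fun e he => ?_
        rw [mul_sum]
        refine sum_congr rfl fun e' he' => ?_
        split_ifs with hk
        · by_cases hne : A * bt l = 0
          · rw [hne, zero_mul]
            by_contra hcon
            obtain ⟨u1, v1, H, -, h4⟩ := hpat i hi e he e' he' hcon
            have hl' : hl e' - hl e = l := congrArg Prod.snd hk
            rw [hl', hne, zero_mul] at h4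
            exact hcon (le_antisymm h4 (hE i hi e he e' he').1)
          · rw [mul_div_cancel₀ _ hne]
        · rw [mul_zero]
      rw [e2]
      refine mul_le_mul_of_nonneg_left ?_ (mul_nonneg hA (hbt l))
      refine hX.trans (le_of_eq ?_)
      rw [mul_assoc]
      congr 2
    · intro i hi e he e' he'
      have hE0 := (hE i hi e he e' he').1
      refine ⟨?_, fun hne => ?_⟩
      · show 0 ≤ (if k i e e' = (t, l) then E i e e' / (A * bt l) else 0)
        split_ifs with hk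
        · exact div_nonneg hE0 (mul_nonneg hA (hbt l))
        · exact le_rfl
      · have hk : k i e e' = (t, l) := by
          by_contra hcon
          exact hne (if_neg hcon)
        have hne' : (if k i e e' = (t, l) then E i e e' / (A * bt l) else 0) ≠ 0 := hne
        rw [if_pos hk] at hne'
        have hEne : E i e e' ≠ 0 := fun h0 => hne' (by rw [h0, zero_div])
        have hAne : A * bt l ≠ 0 := fun h0 => hne' (by rw [h0, div_zero])
        have hApos : 0 < A * bt l := lt_of_le_of_ne (mul_nonneg hA (hbt l)) (Ne.symm hAne)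
        have hp : pat i e e' = t := congrArg Prod.fst hk
        have hl' : hl e' - hl e = l := congrArg Prod.snd hk
        obtain ⟨u1, v1, H, h3, h4⟩ := hpat i hi e he e' he' hEne
        rw [hp] at h3 h4
        rw [hl'] at h4
        refine ⟨((hE i hi e he e' he').2 hEne).1, hl', u1, v1, H, h3, ?_⟩
        show (if k i e e' = (t, l) then E i e e' / (A * bt l) else 0) ≤ _
        rw [if_pos hk, div_le_iff₀ hApos]
        linarith
  have hw : ∀ t : ℕ × ℕ, 0 ≤ ((t.1 : ℝ) * t.2) ^ (-(2 / 5) : ℝ) := fun t =>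
    Real.rpow_nonneg (by positivity) _
  -- the sum over the patterns
  have hpats : ∑ t ∈ T, ((t.1 : ℝ) * t.2) ^ (-(2 / 5) : ℝ) * ∑ e ∈ S.filter (P t), Fm e ≤
      Real.exp 1 * ∑ e ∈ S, Fm e := by
    have e1 : ∑ t ∈ T, ((t.1 : ℝ) * t.2) ^ (-(2 / 5) : ℝ) * ∑ e ∈ S.filter (P t), Fm e =
        ∑ e ∈ S, (∑ t ∈ T.filter (fun t => P t e), ((t.1 : ℝ) * t.2) ^ (-(2 / 5) : ℝ)) * Fm e := by
      simp only [sum_filter, mul_sum, sum_mul]
      rw [sum_comm]
      refine sum_congr rfl fun e _ => sum_congr rfl fun t _ => ?_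
      split_ifs
      · rfl
      · rw [mul_zero, zero_mul]
    rw [e1, mul_sum]
    refine sum_le_sum fun e he => mul_le_mul_of_nonneg_right ?_ (hF.mass e he)
    refine pat_sumX (fun p hp => Dvx_prime hp) (hF.dev e he) _ fun t ht => ?_
    obtain ⟨ht1, ht2⟩ := mem_filter.1 ht
    exact ⟨(hTp t ht1).2.1.ne', (hTp t ht1).2.2.ne', ht2⟩
  calc ∑ t ∈ T, ∑ l ∈ L,
        ∑ i ∈ I, ∑ e ∈ S, ∑ e' ∈ S, (if k i e e' = (t, l) then E i e e' else 0)
      ≤ ∑ t ∈ T, ∑ l ∈ L,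
        (A * bt l) * (C * (((t.1 : ℝ) * t.2) ^ (-(2 / 5) : ℝ) * ∑ e ∈ S.filter (P t), Fm e)) :=
        sum_le_sum fun t ht => sum_le_sum fun l hl' => key t ht l hl'
    _ = (∑ l ∈ L, bt l) * (A * C * ∑ t ∈ T,
          ((t.1 : ℝ) * t.2) ^ (-(2 / 5) : ℝ) * ∑ e ∈ S.filter (P t), Fm e) := by
        rw [sum_mul, sum_comm]
        refine sum_congr rfl fun l _ => ?_
        rw [mul_sum, mul_sum]
        refine sum_congr rfl fun t _ => ?_
        ring
    _ ≤ B * (A * C * (Real.exp 1 * ∑ e ∈ S, Fm e)) := by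
        refine mul_le_mul (hB L) (mul_le_mul_of_nonneg_left hpats (mul_nonneg hA hC)) ?_
          ((sum_nonneg fun l _ => hbt l).trans (hB L))
        refine mul_nonneg (mul_nonneg hA hC) (sum_nonneg fun t _ => mul_nonneg (hw t) (hm0 t))
    _ = C * Real.exp 1 * A * B * ∑ e ∈ S, Fm e := by ring

/-- **The energy theorem at a cut, arbitrary weights, both exponents** -/
theorem x2W (hx : zs g ≤ x)
    {β : Type*} {S : Finset β} {nu : β → ℕ} {hl : β → ℤ} {cc : β → ℕ} {Fm : β → ℝ}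
    (hF : FamX g x S nu hl Fm) {d : β → ℕ → ℝ} (hM : ∀ e ∈ S, MassW g (d e) K)
    (hcol : ColW g x S nu hl cc d K1) (hK0 : 0 ≤ K) (hK1 : 0 ≤ K1)
    {A B : ℝ} {bt : ℤ → ℝ} (hA : 0 ≤ A) (hbt : ∀ l, 0 ≤ bt l)
    (hB : ∀ T : Finset ℤ, ∑ l ∈ T, bt l ≤ B)
    (I : Finset ℕ) (E : ℕ → β → β → ℝ) (hI : ∀ i ∈ I, x ≤ z g i)
    (hE : ∀ i ∈ I, ∀ e ∈ S, ∀ e' ∈ S, 0 ≤ E i e e' ∧ (E i e e' ≠ 0 → max (cc e) (cc e') = i ∧
      ∃ u1 u2 v1 v2 H, PairX g x i (nu e) (nu e') u1 u2 v1 v2 H ∧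
        E i e e' ≤ A * bt (hl e' - hl e) *
          (bdW g i (1 / 2) (nu e) (nu e') (d e) (d e') (Fm e) (Fm e') u1 u2 v1 v2 +
          bdW g i (9 / 20) (nu e) (nu e') (d e) (d e') (Fm e) (Fm e') u1 u2 v1 v2))) :
    ∑ i ∈ I, ∑ e ∈ S, ∑ e' ∈ S, E i e e' ≤ 30 * K1 * K * K * A * B * ∑ e ∈ S, Fm e := by
  classical
  let Q : ℕ → β → β → ℕ × ℕ × ℕ × ℕ × ℕ → Prop := fun i e e' t =>
    PairX g x i (nu e) (nu e') t.1 t.2.1 t.2.2.1 t.2.2.2.1 t.2.2.2.2 ∧
      E i e e' ≤ A * bt (hl e' - hl e) *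
        (bdW g i (1 / 2) (nu e) (nu e') (d e) (d e') (Fm e) (Fm e')
          t.1 t.2.1 t.2.2.1 t.2.2.2.1 +
        bdW g i (9 / 20) (nu e) (nu e') (d e) (d e') (Fm e) (Fm e')
          t.1 t.2.1 t.2.2.1 t.2.2.2.1)
  let w : ℕ → β → β → ℕ × ℕ × ℕ × ℕ × ℕ := fun i e e' => Classical.epsilon (Q i e e')
  have hw : ∀ i ∈ I, ∀ e ∈ S, ∀ e' ∈ S, E i e e' ≠ 0 → Q i e e' (w i e e') := by
    intro i hi e he e' he' hne
    obtain ⟨-, h2⟩ := hE i hi e he e' he'
    obtain ⟨-, u1, u2, v1, v2, H, h3, h4⟩ := h2 hne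
    exact Classical.epsilon_spec (p := Q i e e') ⟨(u1, u2, v1, v2, H), h3, h4⟩
  let t1 : ℕ → β → β → ℝ := fun i e e' => A * bt (hl e' - hl e) *
    bdW g i (1 / 2) (nu e) (nu e') (d e) (d e') (Fm e) (Fm e')
      (w i e e').1 (w i e e').2.1 (w i e e').2.2.1 (w i e e').2.2.2.1
  have ht1 : ∀ i, ∀ e ∈ S, ∀ e' ∈ S, 0 ≤ t1 i e e' := fun i e he e' he' =>
    mul_nonneg (mul_nonneg hA (hbt _))
      (bdW_nonneg _ _ _ _ (hM e he).nonneg (hM e' he').nonneg (hF.mass e he) (hF.mass e' he')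
        _ _ _ _)
  have hs1 := x2tW (θ := 1 / 2) (by norm_num) (by norm_num) hx hF hM hcol hK0 hK1 hA hbt hB I
    (fun i e e' => min (E i e e') (t1 i e e')) hI fun i hi e he e' he' => by
      have hE0 := (hE i hi e he e' he').1
      refine ⟨le_min hE0 (ht1 i e he e' he'), fun hne => ?_⟩
      have hEne : E i e e' ≠ 0 := fun h0 => hne (by
        show min (E i e e') (t1 i e e') = 0
        rw [h0]; exact min_eq_left (ht1 i e he e' he'))
      have hq := hw i hi e he e' he' hEne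
      exact ⟨((hE i hi e he e' he').2 hEne).1, _, _, _, _, _, hq.1, min_le_right _ _⟩
  have hs2 := x2tW (θ := 9 / 20) (by norm_num) (by norm_num) hx hF hM hcol hK0 hK1 hA hbt hB I
    (fun i e e' => E i e e' - min (E i e e') (t1 i e e')) hI fun i hi e he e' he' => by
      have hE0 := (hE i hi e he e' he').1
      refine ⟨sub_nonneg.2 (min_le_left _ _), fun hne => ?_⟩
      have hEne : E i e e' ≠ 0 := fun h0 => hne (by
        show E i e e' - min (E i e e') (t1 i e e') = 0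
        rw [h0, min_eq_left (ht1 i e he e' he'), sub_zero])
      have hq := hw i hi e he e' he' hEne
      refine ⟨((hE i hi e he e' he').2 hEne).1, _, _, _, _, _, hq.1, ?_⟩
      show E i e e' - min (E i e e') (t1 i e e') ≤ _
      have hq2 := hq.2
      rw [mul_add] at hq2
      rcases le_total (E i e e') (t1 i e e') with h5 | h5
      · rw [min_eq_left h5, sub_self]
        exact mul_nonneg (mul_nonneg hA (hbt _))
          (bdW_nonneg _ _ _ _ (hM e he).nonneg (hM e' he').nonneg (hF.mass e he)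
            (hF.mass e' he') _ _ _ _)
      · rw [min_eq_right h5]
        have h6 : t1 i e e' = A * bt (hl e' - hl e) *
          bdW g i (1 / 2) (nu e) (nu e') (d e) (d e') (Fm e) (Fm e')
            (w i e e').1 (w i e e').2.1 (w i e e').2.2.1 (w i e e').2.2.2.1 := rfl
        rw [h6]
        linarith
  have hsum : ∑ i ∈ I, ∑ e ∈ S, ∑ e' ∈ S, E i e e' =
      ∑ i ∈ I, ∑ e ∈ S, ∑ e' ∈ S, min (E i e e') (t1 i e e') +
        ∑ i ∈ I, ∑ e ∈ S, ∑ e' ∈ S, (E i e e' - min (E i e e') (t1 i e e')) := by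
    simp only [← sum_add_distrib]
    refine sum_congr rfl fun i _ => sum_congr rfl fun e _ => sum_congr rfl fun e' _ => ?_
    ring
  rw [hsum]
  have hB0 : 0 ≤ B := by
    have := hB ∅
    rwa [sum_empty] at this
  have hS0 : 0 ≤ ∑ e ∈ S, Fm e := sum_nonneg fun e he => hF.mass e he
  have he1 : Real.exp 1 < 2.7182818286 := Real.exp_one_lt_d9
  have he0 : 0 < Real.exp 1 := Real.exp_pos _
  set Y : ℝ := K1 * K * K * A * B * ∑ e ∈ S, Fm e with hY
  have hY0 : 0 ≤ Y := by positivity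
  calc _ ≤ K1 * K * K * (1 / (1 / 2) + 1 / (1 - 1 / 2)) * Real.exp 1 * A * B * ∑ e ∈ S, Fm e +
        K1 * K * K * (1 / (9 / 20) + 1 / (1 - 9 / 20)) * Real.exp 1 * A * B * ∑ e ∈ S, Fm e :=
        add_le_add hs1 hs2
    _ = (4 + 400 / 99) * Real.exp 1 * Y := by rw [hY]; ring
    _ ≤ 30 * Y := by
        refine mul_le_mul_of_nonneg_right ?_ hY0
        nlinarith
    _ = _ := by rw [hY]; ring

end Vale.P028.SK
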